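import Mathlib

/-! P235: connected random retraction onto a set, from random partitions (one stage). helper130 -/

namespace Vale.Agent.P235.ST.H130

open SimpleGraph

variable {V : Type}

/-- a partial retraction with connected fibres -/
structure Cfg (G : SimpleGraph V) (d : V → V → ℝ) (X : Set V) (R : ℝ) (s : V → Option V) :
    Prop where
  fix : ∀ x ∈ X, s x = some x
  mem : ∀ v x, s v = some x → x ∈ X
  conn : ∀ v x, s v = some x → ∃ q : G.Walk v x, ∀ z ∈ q.support, s z = some x
  near : ∀ v x, s v = some x → d v x ≤ R

theorem step {G : SimpleGraph V} {d l : V → V → ℝ} {X : Set V} {R Δ : ℝ} {s : V → Option V}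
    (hs : Cfg G d X R s) (hΔ : 0 ≤ Δ) (tri : ∀ x y z, d x z ≤ d x y + d y z)
    (hl : ∀ u v, G.Adj u v → d u v ≤ l u v) {c : V → V}
    (hc : ∀ u v, (∃ q : G.Walk u v, ∀ z ∈ q.support, z ∉ X) → c u = c v → d u v ≤ Δ) :
    ∃ s' : V → Option V, Cfg G d X (R + 2 * Δ) s' ∧
      (∀ v x, s v = some x → s' v = some x) ∧
      (∀ u v, G.Adj u v → s u = none → s v = none → c u = c v → s' u = s' v) ∧
      (∀ v x (g : G.Walk v x), s v = none → x ∈ X →
        (∀ e ∈ g.darts, l e.fst e.snd ≤ Δ ∧ (e.fst ∉ X → e.snd ∉ X → c e.fst = c e.snd)) →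
        s' v ≠ none) := by
  classical
  let S : SimpleGraph V :=
    { Adj := fun a b => G.Adj a b ∧ s a = none ∧ s b = none ∧ c a = c b
      symm := ⟨fun a b h => ⟨h.1.symm, h.2.2.1, h.2.1, h.2.2.2.symm⟩⟩
      loopless := ⟨fun a h => G.loopless.irrefl _ h.1⟩ }
  let K : V → Set V := fun v => {u | S.Reachable v u}
  let Good : Set V → V → Prop := fun K x => ∃ u ∈ K, ∃ w, s w = some x ∧ G.Adj u w ∧ l u w ≤ Δ
  let pick : Set V → Option V := fun K => if h : ∃ x, Good K x then some h.choose else none
  let s' : V → Option V := fun v => match s v with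
    | some x => some x
    | none => pick (K v)
  have hs's : ∀ v x, s v = some x → s' v = some x := by
    intro v x h
    show (match s v with | some x => some x | none => pick (K v)) = some x
    rw [h]
  have hs'n : ∀ v, s v = none → s' v = pick (K v) := by
    intro v h
    show (match s v with | some x => some x | none => pick (K v)) = _
    rw [h]
  have hnX : ∀ v, s v = none → v ∉ X := by
    intro v h hv
    rw [hs.fix v hv] at h
    exact absurd h (by simp)
  have hKeq : ∀ u v, S.Reachable u v → K u = K v := by
    intro u v h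
    ext z
    exact ⟨fun hz => h.symm.trans hz, fun hz => h.trans hz⟩
  -- a walk of `S` from an unassigned vertex
  have hSw : ∀ v u, S.Reachable v u → s v = none →
      s u = none ∧ c v = c u ∧ ∃ q : G.Walk v u, ∀ z ∈ q.support, s z = none ∧ S.Reachable v z := by
    rintro v u ⟨p⟩ hv
    induction p with
    | nil => exact ⟨hv, rfl, Walk.nil, by simp [hv]⟩
    | @cons a b e h p ih =>
      obtain ⟨h1, h2, q, hq⟩ := ih h.2.2.1
      refine ⟨h1, h.2.2.2.trans h2, Walk.cons h.1 q, ?_⟩
      intro z hz
      rw [Walk.support_cons, List.mem_cons] at hz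
      rcases hz with rfl | hz
      · exact ⟨hv, Reachable.refl _⟩
      · exact ⟨(hq z hz).1, (Adj.reachable h).trans (hq z hz).2⟩
  have hpick : ∀ v x, s v = none → pick (K v) = some x → Good (K v) x := by
    intro v x _ h
    by_cases hg : ∃ x, Good (K v) x
    · have h1 : pick (K v) = some hg.choose := dif_pos hg
      rw [h1] at h
      have h2 : hg.choose = x := Option.some.inj h
      rw [← h2]
      exact hg.choose_spec
    · have h1 : pick (K v) = none := dif_neg hg
      rw [h1] at h
      exact absurd h (by simp)
  have hF1 : ∀ u v, G.Adj u v → s u = none → s v = none → c u = c v → s' u = s' v := by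
    intro u v huv hu hv hcc
    have hA : S.Adj u v := ⟨huv, hu, hv, hcc⟩
    rw [hs'n u hu, hs'n v hv, hKeq u v hA.reachable]
  refine ⟨s', ⟨?_, ?_, ?_, ?_⟩, hs's, hF1, ?_⟩
  · intro x hx
    exact hs's x x (hs.fix x hx)
  · intro v x h
    rcases hv : s v with _ | y
    · rw [hs'n v hv] at h
      obtain ⟨u, -, w, hw, -⟩ := hpick v x hv h
      exact hs.mem w x hw
    · rw [hs's v y hv] at h
      exact hs.mem v x (by rw [hv]; exact h)
  · intro v x h
    rcases hv : s v with _ | y
    · have h' := h
      rw [hs'n v hv] at h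
      obtain ⟨u, hu, w, hw, huw, -⟩ := hpick v x hv h
      obtain ⟨-, -, q, hq⟩ := hSw v u hu hv
      obtain ⟨q', hq'⟩ := hs.conn w x hw
      refine ⟨q.append (Walk.cons huw q'), ?_⟩
      intro z hz
      rw [Walk.mem_support_append_iff, Walk.support_cons, List.mem_cons] at hz
      have hzq : z ∈ q.support → s' z = some x := by
        intro hz
        obtain ⟨h1, h2⟩ := hq z hz
        rw [hs'n z h1, ← hKeq v z h2]
        exact h
      rcases hz with hz | rfl | hz
      · exact hzq hz
      · exact hzq q.end_mem_support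
      · exact hs's z x (hq' z hz)
    · have hxy : y = x := by
        rw [hs's v y hv] at h
        exact Option.some.inj h
      subst hxy
      obtain ⟨q', hq'⟩ := hs.conn v y hv
      exact ⟨q', fun z hz => hs's z y (hq' z hz)⟩
  · intro v x h
    rcases hv : s v with _ | y
    · rw [hs'n v hv] at h
      obtain ⟨u, hu, w, hw, huw, hlen⟩ := hpick v x hv h
      obtain ⟨-, hcc, q, hq⟩ := hSw v u hu hv
      have h1 := hc v u ⟨q, fun z hz => hnX z (hq z hz).1⟩ hcc
      have h2 := hl u w huw
      have h3 := hs.near w x hw
      have h4 := tri v u x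
      have h5 := tri u w x
      linarith
    · rw [hs's v y hv] at h
      have h3 := hs.near v x (by rw [hv]; exact h)
      linarith
  · intro v x g
    induction g with
    | nil =>
      intro hv hx _
      exact absurd hx (hnX _ hv)
    | @cons a b e h p ih =>
      intro ha he hall
      have hd := hall ⟨(a, b), h⟩ (by simp)
      rcases hb : s b with _ | y
      · have h1 := ih hb he (fun e' he' => hall e' (by simp [he']))
        have h2 := hd.2 (hnX a ha) (hnX b hb)
        rw [hF1 a b h ha hb h2]
        exact h1
      · rw [hs'n a ha]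
        have hg : ∃ x, Good (K a) x := ⟨y, a, Reachable.refl _, b, hb, h, hd.1⟩
        have h1 : pick (K a) = some hg.choose := dif_pos hg
        rw [h1]
        simp

end Vale.Agent.P235.ST.H130
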