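import Vale.Agent.P235.ST.H130.Ret

/-! P235: connected random retraction onto a set, from random partitions (all stages). helper130 -/

namespace Vale.Agent.P235.ST.H130

open SimpleGraph Finset

variable {V : Type}

/-! ### numbers -/

noncomputable def gb (β A Δ : ℝ) : ℝ :=
  if 4 * β * A ≤ Δ then 64 * β * A + 8 * Δ else 160 * β * A - 4 * Δ

noncomputable def hb (β L A Δ : ℝ) : ℝ :=
  254 * β * L + 1016 * β ^ 2 * L * min (A / Δ) 5

theorem gb_nonneg {β A Δ : ℝ} (hβ : 1 ≤ β) (hA : 0 ≤ A) (hΔ : 0 < Δ) : 0 ≤ gb β A Δ := by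
  have hβA : 0 ≤ β * A := by positivity
  unfold gb
  split_ifs with h
  · nlinarith
  · nlinarith

theorem gb_le {β A Δ : ℝ} (hβ : 1 ≤ β) (hA : 0 ≤ A) (hΔ : 0 < Δ) :
    gb β A Δ ≤ 160 * β * A + 8 * Δ := by
  have hβA : 0 ≤ β * A := by positivity
  unfold gb
  split_ifs with h
  · nlinarith
  · nlinarith

theorem gb_step {β A Δ P : ℝ} (hβ : 1 ≤ β) (hA : 0 ≤ A) (hΔ : 0 < Δ) (hP1 : P ≤ 1)
    (hP : P * Δ ≤ β * A + Δ / 16) : 4 * Δ + P * gb β A (2 * Δ) ≤ gb β A Δ := by
  have hβA : 0 ≤ β * A := by positivity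
  have h0 := gb_nonneg hβ hA (by linarith : 0 < 2 * Δ)
  by_cases h : 4 * β * A ≤ Δ
  · have h' : 4 * β * A ≤ 2 * Δ := by linarith
    have e1 : gb β A (2 * Δ) = 64 * β * A + 8 * (2 * Δ) := by unfold gb; rw [if_pos h']
    have e2 : gb β A Δ = 64 * β * A + 8 * Δ := by unfold gb; rw [if_pos h]
    rw [e1, e2]
    -- P ≤ 1/4 + 1/16
    have hP2 : P ≤ 5 / 16 := by
      have : P * Δ ≤ 5 / 16 * Δ := by nlinarith
      exact le_of_mul_le_mul_right this hΔ
    have h3 : P * (64 * β * A) ≤ 5 / 16 * (64 * β * A) := by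
      apply mul_le_mul_of_nonneg_right hP2; nlinarith
    nlinarith
  · have e2 : gb β A Δ = 160 * β * A - 4 * Δ := by unfold gb; rw [if_neg h]
    rw [e2]
    push Not at h
    have h4 : P * gb β A (2 * Δ) ≤ gb β A (2 * Δ) := by nlinarith
    by_cases h' : 4 * β * A ≤ 2 * Δ
    · have e1 : gb β A (2 * Δ) = 64 * β * A + 8 * (2 * Δ) := by unfold gb; rw [if_pos h']
      rw [e1] at h4 ⊢
      nlinarith
    · have e1 : gb β A (2 * Δ) = 160 * β * A - 4 * (2 * Δ) := by unfold gb; rw [if_neg h']
      rw [e1] at h4 ⊢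
      nlinarith

theorem hb_nonneg {β L A Δ : ℝ} (hβ : 1 ≤ β) (hL : 0 ≤ L) (hA : 0 ≤ A) (hΔ : 0 < Δ) :
    0 ≤ hb β L A Δ := by
  unfold hb
  have : 0 ≤ min (A / Δ) 5 := le_min (by positivity) (by norm_num)
  positivity

theorem hb_le {β L A Δ : ℝ} (hL : 0 ≤ L) :
    hb β L A Δ ≤ 254 * β * L + 5080 * β ^ 2 * L := by
  unfold hb
  have h1 : min (A / Δ) 5 ≤ 5 := min_le_right _ _
  have h2 : 0 ≤ 1016 * β ^ 2 * L := by positivity
  have := mul_le_mul_of_nonneg_left h1 h2
  linarith

theorem hb_anti {β L A Δ : ℝ} (hL : 0 ≤ L) (hA : 0 ≤ A) (hΔ : 0 < Δ) :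
    hb β L A (2 * Δ) ≤ hb β L A Δ := by
  unfold hb
  have h1 : A / (2 * Δ) ≤ A / Δ := by
    apply div_le_div_of_nonneg_left hA hΔ; linarith
  have h2 : min (A / (2 * Δ)) 5 ≤ min (A / Δ) 5 := min_le_min h1 le_rfl
  have h3 : 0 ≤ 1016 * β ^ 2 * L := by positivity
  have := mul_le_mul_of_nonneg_left h2 h3
  linarith

theorem hb_step {β L A Δ P Q B : ℝ} (hβ : 1 ≤ β) (hL : 0 ≤ L) (hA : 0 ≤ A) (hΔ : 0 < Δ)
    (hAΔ : A ≤ 5 * Δ) (hP1 : P ≤ 1)
    (hP : P * Δ ≤ β * A + Δ / 16) (hQ : Q * B ≤ 42 * β * L + 340 * β ^ 2 * L * (A / Δ)) :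
    Q * B + P * hb β L A (2 * Δ) ≤ hb β L A Δ := by
  have hβA : 0 ≤ β * A := by positivity
  have h0 := hb_nonneg hβ hL hA (by linarith : 0 < 2 * Δ)
  set r : ℝ := A / Δ with hr
  have hr0 : 0 ≤ r := by positivity
  have hr5 : r ≤ 5 := by rw [hr, div_le_iff₀ hΔ]; linarith
  have e0 : A / (2 * Δ) = r / 2 := by rw [hr]; field_simp
  have e1 : hb β L A (2 * Δ) = 254 * β * L + 1016 * β ^ 2 * L * (r / 2) := by
    unfold hb
    rw [e0, min_eq_left (by linarith)]
  have e2 : hb β L A Δ = 254 * β * L + 1016 * β ^ 2 * L * r := by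
    unfold hb
    rw [← hr, min_eq_left hr5]
  have hAr : A = r * Δ := by rw [hr]; field_simp
  have hP2 : P ≤ β * r + 1 / 16 := by
    have : P * Δ ≤ (β * r + 1 / 16) * Δ := by rw [hAr] at hP; nlinarith
    exact le_of_mul_le_mul_right this hΔ
  have hβL : 0 ≤ β * L := by positivity
  have hβLr : 0 ≤ β ^ 2 * L * r := by positivity
  by_cases h : 4 * (β * r) ≤ 1
  · -- large regime
    have hP3 : P ≤ 5 / 16 := by linarith
    have h1 : P * hb β L A (2 * Δ) ≤ 5 / 16 * hb β L A (2 * Δ) :=
      mul_le_mul_of_nonneg_right hP3 h0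
    have h2 : β ^ 2 * L * r ≤ β * L / 4 := by
      have : β * L * (4 * (β * r)) ≤ β * L * 1 := mul_le_mul_of_nonneg_left h hβL
      nlinarith
    rw [e2]
    rw [e1] at h1 ⊢
    nlinarith
  · push Not at h
    have h1 : P * hb β L A (2 * Δ) ≤ hb β L A (2 * Δ) := by nlinarith
    have h2 : β * L ≤ 4 * (β ^ 2 * L * r) := by
      have : β * L * 1 ≤ β * L * (4 * (β * r)) := mul_le_mul_of_nonneg_left h.le hβL
      nlinarith
    rw [e2]
    rw [e1] at h1 ⊢
    nlinarith

/-! ### families -/

/-- weighted family of retractions onto `X` with connected fibres which extend `s` -/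
structure Fam (G : SimpleGraph V) (X : Set V) (s : V → Option V) {ι : Type} [Fintype ι]
    (w : ι → ℝ) (π : ι → V → V) : Prop where
  nn : ∀ i, 0 ≤ w i
  sum : ∑ i, w i = 1
  mem : ∀ i v, π i v ∈ X
  ext : ∀ i v x, s v = some x → π i v = x
  conn : ∀ i v, ∃ q : G.Walk v (π i v), ∀ z ∈ q.support, π i z = π i v

theorem list_swap {Ω α : Type} [Fintype Ω] (f : Ω → α → ℝ) (L : List α) :
    ∑ o, (L.map (f o)).sum = (L.map (fun e => ∑ o, f o e)).sum := by
  induction L with
  | nil => simp
  | cons a L ih => simp only [List.map_cons, List.sum_cons, sum_add_distrib, ih]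

section run

variable {G : SimpleGraph V} {d l : V → V → ℝ} {X : Set V} {A : V → ℝ} {β ε : ℝ} {m : ℕ}

/-- the partition at one scale -/
structure Part (G : SimpleGraph V) (d l : V → V → ℝ) (X : Set V) (β ε Δ : ℝ) {Ω : Type}
    [Fintype Ω] (c : Ω → V → V) : Prop where
  diam : ∀ o u v, (∃ q : G.Walk u v, ∀ z ∈ q.support, z ∉ X) → c o u = c o v → d u v ≤ Δ
  cut : ∀ u v, u ∉ X → v ∉ X → G.Adj u v →
    (({o | c o u ≠ c o v}.ncard : ℕ) : ℝ) ≤ (β * l u v / Δ + ε) * Fintype.card Ω

open Classical in
theorem cut_sum {Ω : Type} [Fintype Ω] {c : Ω → V → V} {Δ : ℝ} (hp : Part G d l X β ε Δ c)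
    {u v : V} (hu : u ∉ X) (hv : v ∉ X) (h : G.Adj u v) :
    ∑ o, (if c o u ≠ c o v then (1 : ℝ) else 0) ≤ (β * l u v / Δ + ε) * Fintype.card Ω := by
  refine le_trans (le_of_eq ?_) (hp.cut u v hu hv h)
  rw [Finset.sum_ite, Finset.sum_const_zero, add_zero, Finset.sum_const, nsmul_eq_mul, mul_one]
  congr 1
  rw [Set.ncard_eq_toFinset_card']
  congr 1
  ext o
  simp

theorem le_of_mem_sum {L : List ℝ} (h0 : ∀ a ∈ L, 0 ≤ a) : ∀ a ∈ L, a ≤ L.sum := by
  induction L with
  | nil => intro a ha; simp at ha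
  | cons b L ih =>
    intro a ha
    rw [List.sum_cons]
    have hL : 0 ≤ L.sum := List.sum_nonneg fun a ha => h0 a (List.mem_cons_of_mem _ ha)
    have hb : 0 ≤ b := h0 b List.mem_cons_self
    rcases List.mem_cons.1 ha with rfl | ha
    · linarith
    · have := ih (fun a ha => h0 a (List.mem_cons_of_mem _ ha)) a ha
      linarith

open Classical in
/-- the fraction of the partitions which leave `v` unassigned -/
theorem bad_le {Ω : Type} [Fintype Ω] [Nonempty Ω] {c : Ω → V → V} {Δ : ℝ} (hΔ : 0 < Δ)
    (hβ : 1 ≤ β) (hε : 0 ≤ ε) (hmε : m * ε ≤ 1 / 16) (hp : Part G d l X β ε Δ c)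
    (hl0 : ∀ u v, G.Adj u v → 0 < l u v) {v : V} (hA : 0 ≤ A v)
    (hwalk : ∃ x ∈ X, ∃ g : G.Walk v x, g.length ≤ m ∧
      (g.darts.map (fun e => l e.fst e.snd)).sum ≤ A v)
    {s' : Ω → V → Option V}
    (hs' : ∀ o x (g : G.Walk v x), x ∈ X →
        (∀ e ∈ g.darts, l e.fst e.snd ≤ Δ ∧ (e.fst ∉ X → e.snd ∉ X → c o e.fst = c o e.snd)) →
        s' o v ≠ none) :
    ∃ P : ℝ, 0 ≤ P ∧ P ≤ 1 ∧ P * Δ ≤ β * A v + Δ / 16 ∧
      ∑ o, (if s' o v = none then (1 : ℝ) else 0) = P * Fintype.card Ω := by
  have hN : (0 : ℝ) < Fintype.card Ω := by exact_mod_cast Fintype.card_pos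
  set S : ℝ := ∑ o, (if s' o v = none then (1 : ℝ) else 0) with hS
  have hS0 : 0 ≤ S := Finset.sum_nonneg fun o _ => by split_ifs <;> norm_num
  have hS1 : S ≤ Fintype.card Ω := by
    have : S ≤ ∑ _o : Ω, (1 : ℝ) := Finset.sum_le_sum fun o _ => by split_ifs <;> norm_num
    simpa using this
  refine ⟨S / Fintype.card Ω, by positivity, by rw [div_le_one hN]; exact hS1, ?_,
    by field_simp⟩
  by_cases hAΔ : A v ≤ Δ
  · obtain ⟨x, hx, g, hgl, hgs⟩ := hwalk
    have hnn : ∀ a ∈ g.darts.map (fun e => l e.fst e.snd), 0 ≤ a := by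
      intro a ha
      obtain ⟨e, -, rfl⟩ := List.mem_map.1 ha
      exact (hl0 _ _ e.adj).le
    have hle : ∀ e ∈ g.darts, l e.fst e.snd ≤ Δ := by
      intro e he
      have := le_of_mem_sum hnn (l e.fst e.snd) (List.mem_map.2 ⟨e, he, rfl⟩)
      linarith
    let f : Ω → G.Dart → ℝ := fun o e =>
      if e.fst ∉ X ∧ e.snd ∉ X ∧ c o e.fst ≠ c o e.snd then 1 else 0
    have hf0 : ∀ o e, 0 ≤ f o e := fun o e => by simp only [f]; split_ifs <;> norm_num
    have h1 : ∀ o, (if s' o v = none then (1 : ℝ) else 0) ≤ (g.darts.map (f o)).sum := by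
      intro o
      split_ifs with h
      · by_contra hcon
        push Not at hcon
        apply hs' o x g hx _ h
        intro e he
        refine ⟨hle e he, fun h1 h2 => ?_⟩
        by_contra h3
        have h4 : f o e = 1 := if_pos ⟨h1, h2, h3⟩
        have h5 := le_of_mem_sum (L := g.darts.map (f o)) (by
          intro a ha
          obtain ⟨e, -, rfl⟩ := List.mem_map.1 ha
          exact hf0 o e) (f o e) (List.mem_map.2 ⟨e, he, rfl⟩)
        linarith
      · exact List.sum_nonneg (by
          intro a ha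
          obtain ⟨e, -, rfl⟩ := List.mem_map.1 ha
          exact hf0 o e)
    have h2 : S ≤ (g.darts.map (fun e => ∑ o, f o e)).sum := by
      rw [← list_swap]
      exact Finset.sum_le_sum fun o _ => h1 o
    have h3 : ∀ e : G.Dart, ∑ o, f o e ≤ (β * l e.fst e.snd / Δ + ε) * Fintype.card Ω := by
      intro e
      have hl := hl0 _ _ e.adj
      by_cases hX : e.fst ∉ X ∧ e.snd ∉ X
      · refine le_trans (le_of_eq ?_) (cut_sum hp hX.1 hX.2 e.adj)
        apply Finset.sum_congr rfl
        intro o _
        simp only [f]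
        by_cases hcc : c o e.fst = c o e.snd
        · rw [if_neg (fun h => h.2.2 hcc), if_neg (fun h => h hcc)]
        · rw [if_pos ⟨hX.1, hX.2, hcc⟩, if_pos hcc]
      · have : ∑ o, f o e = 0 := Finset.sum_eq_zero fun o _ => if_neg fun h => hX ⟨h.1, h.2.1⟩
        rw [this]
        have : 0 ≤ β * l e.fst e.snd / Δ := by positivity
        positivity
    have h4 : ∀ L : List G.Dart, (L.map (fun e => ∑ o, f o e)).sum ≤
        (β * (L.map (fun e => l e.fst e.snd)).sum / Δ + L.length * ε) * Fintype.card Ω := by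
      intro L
      induction L with
      | nil => simp
      | cons e L ih =>
        simp only [List.map_cons, List.sum_cons, List.length_cons, Nat.cast_add, Nat.cast_one]
        have := h3 e
        have e1 : β * (l e.fst e.snd + (L.map (fun e => l e.fst e.snd)).sum) / Δ =
            β * l e.fst e.snd / Δ + β * (L.map (fun e => l e.fst e.snd)).sum / Δ := by ring
        rw [e1]
        nlinarith
    have h5 := h4 g.darts
    rw [Walk.length_darts] at h5
    have h6 : β * (g.darts.map (fun e => l e.fst e.snd)).sum / Δ ≤ β * A v / Δ := by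
      apply div_le_div_of_nonneg_right _ hΔ.le
      exact mul_le_mul_of_nonneg_left hgs (by linarith)
    have h7 : (g.length : ℝ) * ε ≤ 1 / 16 := by
      have : (g.length : ℝ) ≤ m := by exact_mod_cast hgl
      nlinarith
    have h8 : S ≤ (β * A v / Δ + 1 / 16) * Fintype.card Ω := by
      refine h2.trans (h5.trans ?_)
      apply mul_le_mul_of_nonneg_right _ hN.le
      linarith
    have h9 : S / Fintype.card Ω ≤ β * A v / Δ + 1 / 16 := by
      rw [div_le_iff₀ hN]; exact h8
    calc S / Fintype.card Ω * Δ ≤ (β * A v / Δ + 1 / 16) * Δ :=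
          mul_le_mul_of_nonneg_right h9 hΔ.le
      _ = β * A v + Δ / 16 := by field_simp
  · push Not at hAΔ
    have h1 : S / Fintype.card Ω ≤ 1 := by rw [div_le_one hN]; exact hS1
    have h2 : S / Fintype.card Ω * Δ ≤ 1 * Δ := mul_le_mul_of_nonneg_right h1 hΔ.le
    nlinarith

end run

open Classical in
theorem run {G : SimpleGraph V} {d l : V → V → ℝ} {X : Set V} {A : V → ℝ} {β ε : ℝ} {m n : ℕ}
    {D : ℕ → ℝ} (hβ : 1 ≤ β) (hε : 0 ≤ ε) (hmε : m * ε ≤ 1 / 16)
    (hD0 : ∀ i, 0 < D i) (hD : ∀ i, D (i + 1) = 2 * D i)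
    (dself : ∀ x, d x x = 0) (dsymm : ∀ x y, d x y = d y x)
    (tri : ∀ x y z, d x z ≤ d x y + d y z)
    (hl0 : ∀ u v, G.Adj u v → 0 < l u v) (hl : ∀ u v, G.Adj u v → d u v ≤ l u v)
    (hA0 : ∀ v, 0 ≤ A v) (hA : ∀ v, ∀ x ∈ X, A v ≤ d v x)
    (hAl : ∀ u v, G.Adj u v → |A u - A v| ≤ l u v)
    (hwalk : ∀ v ∉ X, ∃ x ∈ X, ∃ g : G.Walk v x, g.length ≤ m ∧
      (g.darts.map (fun e => l e.fst e.snd)).sum ≤ A v)
    (hX : X.Nonempty)
    (hpart : ∀ Δ, 0 < Δ → ∃ (Ω : Type) (_ : Fintype Ω) (_ : Nonempty Ω) (c : Ω → V → V),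
      Part G d l X β ε Δ c)
    (hDn : ∀ u v, d u v ≤ D n) (hDl : ∀ u v, G.Adj u v → l u v ≤ D n)
    (hDA : ∀ u, 4 * β * A u ≤ D n)
    (hε2 : ∀ u v, G.Adj u v → ∀ i ≤ n, ε * (41 * D i + 340 * β * A u) ≤ l u v) :
    ∀ j i, i + j = n → ∀ s, Cfg G d X (2 * D i) s →
      ∃ (ι : Type) (_ : Fintype ι) (w : ι → ℝ) (π : ι → V → V), Fam G X s w π ∧
        (∀ u, s u = none → ∑ k, w k * d u (π k u) ≤ gb β (A u) (D i)) ∧
        ∀ u v, G.Adj u v → s u = none → s v = none → 8 * l u v < A u →
          ∑ k, w k * d (π k u) (π k v) ≤ hb β (l u v) (A u) (D i) := by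
  intro j
  induction j with
  | zero =>
    intro i hi s hs
    have hi' : i = n := by omega
    subst hi'
    obtain ⟨x0, hx0⟩ := hX
    obtain ⟨s', h1, h2, h3, h4⟩ := step (c := fun _ => x0) hs (hD0 i).le tri hl
      (fun u v _ _ => hDn u v)
    have hall : ∀ v, ∃ x, s' v = some x := by
      intro v
      rcases hv : s v with _ | x
      · have hvX : v ∉ X := by
          intro h
          rw [hs.fix v h] at hv
          exact absurd hv (by simp)
        obtain ⟨x, hx, g, -, -⟩ := hwalk v hvX
        have := h4 v x g hv hx (fun e _ => ⟨hDl _ _ e.adj, fun _ _ => rfl⟩)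
        exact Option.ne_none_iff_exists'.1 this
      · exact ⟨x, h2 v x hv⟩
    choose p hp using hall
    refine ⟨Unit, inferInstance, fun _ => 1, fun _ => p, ⟨fun _ => zero_le_one, by simp,
      fun _ v => h1.mem v _ (hp v), ?_, ?_⟩, ?_, ?_⟩
    · intro _ v x h
      have := h2 v x h
      rw [hp v] at this
      exact Option.some.inj this
    · intro _ v
      obtain ⟨q, hq⟩ := h1.conn v _ (hp v)
      refine ⟨q, fun z hz => ?_⟩
      have := hq z hz
      rw [hp z] at this
      exact Option.some.inj this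
    · intro u _
      have e2 : gb β (A u) (D i) = 64 * β * A u + 8 * D i := by unfold gb; rw [if_pos (hDA u)]
      have h5 := h1.near u _ (hp u)
      have h6 : 0 ≤ β * A u := mul_nonneg (by linarith) (hA0 u)
      have h7 := hD0 i
      rw [e2]
      simp only [Finset.univ_unique, Finset.sum_const, Finset.card_singleton, one_smul, one_mul]
      linarith
    · intro u v huv hu hv _
      have h5 := h3 u v huv hu hv rfl
      rw [hp u, hp v] at h5
      have h6 : p u = p v := Option.some.inj h5
      have := hb_nonneg hβ (hl0 u v huv).le (hA0 u) (hD0 i)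
      simpa [h6, dself] using this
  | succ j ih =>
    intro i hi s hs
    obtain ⟨Ω, _, _, c, hc⟩ := hpart (D i) (hD0 i)
    have hst := fun o => step (c := c o) hs (hD0 i).le tri hl (hc.diam o)
    choose s' hs1 hs2 hs3 hs4 using hst
    have hcfg : ∀ o, Cfg G d X (2 * D (i + 1)) (s' o) := by
      intro o
      have h := hs1 o
      have e : 2 * D (i + 1) = 2 * D i + 2 * D i := by rw [hD]; ring
      rw [e]; exact h
    have hih := fun o => ih (i + 1) (by omega) (s' o) (hcfg o)
    choose ι hι w π hF hg hh using hih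
    have hN : (0 : ℝ) < Fintype.card Ω := by exact_mod_cast Fintype.card_pos
    have hDi := hD0 i
    have hD1 := hD i
    have hsum : ∀ f : (o : Ω) → ι o → ℝ, ∑ p : (Σ o, ι o), w p.1 p.2 / Fintype.card Ω * f p.1 p.2 =
        (∑ o, ∑ k, w o k * f o k) / Fintype.card Ω := by
      intro f
      rw [Fintype.sum_sigma, Finset.sum_div]
      refine Finset.sum_congr rfl fun o _ => ?_
      rw [Finset.sum_div]
      refine Finset.sum_congr rfl fun k _ => ?_
      ring
    -- average of one vertex
    have hval : ∀ u, s u = none → ∀ o, ∑ k, w o k * d u (π o k u) ≤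
        4 * D i + (if s' o u = none then 1 else 0) * gb β (A u) (D (i + 1)) := by
      intro u _ o
      rcases h : s' o u with _ | x
      · have := hg o u h
        simp only [if_true]
        linarith
      · have h1 : ∀ k, π o k u = x := fun k => (hF o).ext k u x h
        have h2 : ∑ k, w o k * d u (π o k u) = d u x := by
          simp only [h1]
          rw [← Finset.sum_mul, (hF o).sum, one_mul]
        have h3 := (hcfg o).near u x h
        rw [h2]
        simp only [reduceCtorEq, if_false]
        linarith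
    have hbadd := fun u hu => bad_le (v := u) (A := A) hDi hβ hε hmε hc hl0 (hA0 u)
      (hwalk u hu) (s' := s')
    have hnX : ∀ v, s v = none → v ∉ X := by
      intro v h hv
      rw [hs.fix v hv] at h
      exact absurd h (by simp)
    refine ⟨(Σ o, ι o), inferInstance, fun p => w p.1 p.2 / Fintype.card Ω, fun p => π p.1 p.2,
      ⟨fun p => div_nonneg ((hF p.1).nn p.2) hN.le, ?_, fun p v => (hF p.1).mem p.2 v,
        fun p v x h => (hF p.1).ext p.2 v x (hs2 p.1 v x h),
        fun p v => (hF p.1).conn p.2 v⟩, ?_, ?_⟩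
    · have h1 := hsum (fun _ _ => 1)
      simp only [mul_one] at h1
      rw [h1]
      have h2 : ∑ o, ∑ k, w o k = Fintype.card Ω := by
        simp only [(hF _).sum]
        simp
      rw [h2, div_self hN.ne']
    · intro u hu
      obtain ⟨P, hP0, hP1, hP, hPS⟩ := hbadd u (hnX u hu)
        (fun o x g hx hall => hs4 o u x g hu hx hall)
      rw [hsum (fun o k => d u (π o k u)), div_le_iff₀ hN]
      have h1 : ∑ o, ∑ k, w o k * d u (π o k u) ≤ ∑ o, (4 * D i +
          (if s' o u = none then (1 : ℝ) else 0) * gb β (A u) (D (i + 1))) :=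
        Finset.sum_le_sum fun o _ => hval u hu o
      have h2 : ∑ o : Ω, (4 * D i +
          (if s' o u = none then (1 : ℝ) else 0) * gb β (A u) (D (i + 1))) =
          (4 * D i + P * gb β (A u) (D (i + 1))) * Fintype.card Ω := by
        have e3 : ∑ o : Ω, (if s' o u = none then (1 : ℝ) else 0) * gb β (A u) (D (i + 1)) =
            P * Fintype.card Ω * gb β (A u) (D (i + 1)) := by
          rw [← hPS, Finset.sum_mul]
        rw [Finset.sum_add_distrib, e3]
        simp only [Finset.sum_const, Finset.card_univ, nsmul_eq_mul]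
        ring
      have h3 := gb_step (A := A u) hβ (hA0 u) hDi hP1 hP
      rw [← hD1] at h3
      have h4 := mul_le_mul_of_nonneg_right h3 hN.le
      linarith
    · intro u v huv hu hv hlA
      have hL := hl0 u v huv
      rw [hsum (fun o k => d (π o k u) (π o k v)), div_le_iff₀ hN]
      by_cases htiny : 4 * D i < A u ∧ 4 * D i < A v
      · have hno : ∀ o z, 4 * D i < A z → s' o z = none := by
          intro o z hz
          rcases h : s' o z with _ | x
          · rfl
          · have h1 := (hcfg o).near z x h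
            have h2 := hA z x ((hcfg o).mem z x h)
            exfalso
            linarith
        have h1 : ∀ o, ∑ k, w o k * d (π o k u) (π o k v) ≤ hb β (l u v) (A u) (D i) := by
          intro o
          have h2 := hh o u v huv (hno o u htiny.1) (hno o v htiny.2) hlA
          have h3 := hb_anti (β := β) hL.le (hA0 u) hDi
          rw [← hD1] at h3
          linarith
        calc ∑ o, ∑ k, w o k * d (π o k u) (π o k v) ≤ ∑ _o : Ω, hb β (l u v) (A u) (D i) :=
              Finset.sum_le_sum fun o _ => h1 o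
          _ = _ := by simp only [Finset.sum_const, Finset.card_univ, nsmul_eq_mul]; ring
      · have hAv := abs_le.1 (hAl u v huv)
        have hAD : A u ≤ 5 * D i := by
          by_cases h : 4 * D i < A u
          · have : ¬ 4 * D i < A v := fun h' => htiny ⟨h, h'⟩
            linarith [hAv.2]
          · linarith
        obtain ⟨P, hP0, hP1, hP, hPS⟩ := hbadd u (hnX u hu)
          (fun o x g hx hall => hs4 o u x g hu hx hall)
        set B : ℝ := 41 * D i + 340 * β * A u with hB
        have hβA : 0 ≤ β * A u := mul_nonneg (by linarith) (hA0 u)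
        have hB0 : 0 ≤ B := by nlinarith
        have hhb := hb_nonneg hβ hL.le (hA0 u) (hD0 (i + 1))
        have hgu := gb_nonneg hβ (hA0 u) (hD0 (i + 1))
        have hgv := gb_nonneg hβ (hA0 v) (hD0 (i + 1))
        have hgu' := gb_le hβ (hA0 u) (hD0 (i + 1))
        have hgv' := gb_le hβ (hA0 v) (hD0 (i + 1))
        have hβv : β * A v ≤ β * (9 / 8 * A u) :=
          mul_le_mul_of_nonneg_left (by linarith [hAv.1]) (by linarith)
        have hone : ∀ z, s z = none → ∀ o, ∑ k, w o k * d z (π o k z) ≤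
            4 * D i + gb β (A z) (D (i + 1)) := by
          intro z hz o
          have h1 := hval z hz o
          have h2 := gb_nonneg hβ (hA0 z) (hD0 (i + 1))
          split_ifs at h1
          · linarith
          · linarith
        have h1 : ∀ o, ∑ k, w o k * d (π o k u) (π o k v) ≤
            (if c o u ≠ c o v then (1 : ℝ) else 0) * B +
            (if s' o u = none then (1 : ℝ) else 0) * hb β (l u v) (A u) (D (i + 1)) := by
          intro o
          by_cases hcc : c o u = c o v
          · rw [if_neg (fun h => h hcc)]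
            have h2 := hs3 o u v huv hu hv hcc
            rcases h : s' o u with _ | x
            · have h3 := hh o u v huv h (by rw [← h2]; exact h) hlA
              simp only [if_true]
              linarith
            · have h3 : ∀ k, π o k u = x := fun k => (hF o).ext k u x h
              have h4 : ∀ k, π o k v = x := fun k => (hF o).ext k v x (by rw [← h2]; exact h)
              simp only [h3, h4, dself, mul_zero, Finset.sum_const_zero]
              simp
          · rw [if_pos hcc]
            have h2 := hone u hu o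
            have h3 := hone v hv o
            have h4 : ∑ k, w o k * d (π o k u) (π o k v) ≤
                ∑ k, (w o k * d u (π o k u) + w o k * l u v + w o k * d v (π o k v)) := by
              refine Finset.sum_le_sum fun k _ => ?_
              have t1 := tri (π o k u) u (π o k v)
              have t2 := tri u v (π o k v)
              have t3 := dsymm (π o k u) u
              have t4 := hl u v huv
              have t5 := (hF o).nn k
              have : d (π o k u) (π o k v) ≤ d u (π o k u) + l u v + d v (π o k v) := by linarith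
              nlinarith
            rw [Finset.sum_add_distrib, Finset.sum_add_distrib, ← Finset.sum_mul, (hF o).sum,
              one_mul] at h4
            have h5 : 0 ≤ (if s' o u = none then (1 : ℝ) else 0) *
                hb β (l u v) (A u) (D (i + 1)) := by
              split_ifs
              · linarith
              · linarith
            have h6 : 4 * D i + gb β (A u) (D (i + 1)) + l u v +
                (4 * D i + gb β (A v) (D (i + 1))) ≤ B := by
              rw [hD1] at hgu' hgv' ⊢
              rw [hB]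
              linarith
            linarith
        have h2 : ∑ o, ∑ k, w o k * d (π o k u) (π o k v) ≤
            (∑ o, (if c o u ≠ c o v then (1 : ℝ) else 0)) * B +
              P * Fintype.card Ω * hb β (l u v) (A u) (D (i + 1)) := by
          rw [← hPS, Finset.sum_mul, Finset.sum_mul, ← Finset.sum_add_distrib]
          exact Finset.sum_le_sum fun o _ => h1 o
        have h3 := cut_sum hc (hnX u hu) (hnX v hv) huv
        have h4 := mul_le_mul_of_nonneg_right h3 hB0
        have h5 : (β * l u v / D i + ε) * B ≤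
            42 * β * l u v + 340 * β ^ 2 * l u v * (A u / D i) := by
          have h6 := hε2 u v huv i (by omega)
          have h7 : β * l u v / D i * B =
              41 * β * l u v + 340 * β ^ 2 * l u v * (A u / D i) := by
            rw [hB]; field_simp
          have h8 : l u v ≤ β * l u v := by nlinarith
          rw [add_mul, h7]
          linarith
        have h6 := hb_step (A := A u) (Q := β * l u v / D i + ε) hβ hL.le (hA0 u) hDi hAD hP1 hP h5
        rw [← hD1] at h6
        have h7 := mul_le_mul_of_nonneg_right h6 hN.le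
        nlinarith

end Vale.Agent.P235.ST.H130
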