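import Vale.Agent.P235.Comp.PathSum
import Vale.Agent.P235.ST.H130.RetRun

/-! P235: connected random retraction onto a set: geodesics, scales, conclusion. helper130 -/

namespace Vale.Agent.P235.ST.H130

open SimpleGraph Finset Vale.Agent.P235

theorem retr_of_cuts {β : ℝ} (hβ : 1 ≤ β) {V : Type} [Finite V] {G : SimpleGraph V}
    {ℓ : Sym2 V → ℝ} (hc : G.Connected) (hℓ : ∀ e ∈ G.edgeSet, 0 < ℓ e) {X : Set V}
    (hX : X.Nonempty)
    (hcut : ∀ Δ ε : ℝ, 0 < Δ → 0 < ε → ∃ (Ω : Type) (_ : Fintype Ω) (_ : Nonempty Ω)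
      (c : Ω → V → V),
      (∀ ω u v, u ∉ X → v ∉ X → ReachOff G X u v → c ω u = c ω v → pathDist G ℓ u v ≤ Δ) ∧
      ∀ u v, u ∉ X → v ∉ X → G.Adj u v →
        (({ω | c ω u ≠ c ω v}.ncard : ℕ) : ℝ) ≤ (β * ℓ s(u, v) / Δ + ε) * Fintype.card Ω) :
    ∃ (ι : Type) (_ : Fintype ι) (w : ι → ℝ) (π : ι → V → V), (∀ i, 0 ≤ w i) ∧ ∑ i, w i = 1 ∧
      (∀ i v, π i v ∈ X) ∧ (∀ i, ∀ x ∈ X, π i x = x) ∧
      (∀ i v, ∃ q : G.Walk v (π i v), ∀ z ∈ q.support, π i z = π i v) ∧
      ∀ u v, G.Adj u v →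
        ∑ i, w i * pathDist G ℓ (π i u) (π i v) ≤ 10000 * β ^ 2 * ℓ s(u, v) := by
  classical
  have := Fintype.ofFinite V
  have hd := pathDist_isMet hc hℓ
  set d : V → V → ℝ := pathDist G ℓ with hdd
  let l : V → V → ℝ := fun u v => ℓ s(u, v)
  obtain ⟨ν, hν⟩ := exists_near hc hℓ hX
  let A : V → ℝ := fun v => d v (ν v)
  have hd0 : ∀ x y, 0 ≤ d x y := fun x y => hd.nonneg x y
  have hl0 : ∀ u v, G.Adj u v → 0 < l u v := fun u v h => hℓ _ h
  have hl : ∀ u v, G.Adj u v → d u v ≤ l u v := fun u v h => pathDist_adj hℓ h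
  have hlsymm : ∀ u v, l u v = l v u := fun u v => by simp only [l, Sym2.eq_swap]
  have hA0 : ∀ v, 0 ≤ A v := fun v => hd0 _ _
  have hA : ∀ v, ∀ x ∈ X, A v ≤ d v x := fun v x hx => hν.le v x hx
  have hAl1 : ∀ u v, G.Adj u v → A u ≤ A v + l u v := by
    intro u v h
    have h1 := hA u (ν v) (hν.mem v)
    have h2 := hd.tri u v (ν v)
    have h3 := hl u v h
    show A u ≤ d v (ν v) + l u v
    linarith
  have hAl : ∀ u v, G.Adj u v → |A u - A v| ≤ l u v := by
    intro u v h
    have h1 := hAl1 u v h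
    have h2 := hAl1 v u h.symm
    rw [← hlsymm] at h2
    exact abs_le.2 ⟨by linarith, by linarith⟩
  -- geodesics
  have hgeo : ∀ v, ∃ g : G.Walk v (ν v), (g.darts.map (fun e => l e.fst e.snd)).sum ≤ A v := by
    intro v
    obtain ⟨g, hg⟩ := exists_geodesic hc hℓ v (ν v)
    refine ⟨g, le_of_eq ?_⟩
    show _ = pathDist G ℓ v (ν v)
    rw [← hg]
    unfold Walk.edges
    rw [List.map_map]
    rfl
  choose g hg using hgeo
  let m : ℕ := ∑ v, (g v).length
  have hm : ∀ v, (g v).length ≤ m := fun v =>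
    Finset.single_le_sum (f := fun v => (g v).length) (fun _ _ => Nat.zero_le _) (mem_univ v)
  -- least edge length
  obtain ⟨δ, hδ0, hδ⟩ : ∃ δ : ℝ, 0 < δ ∧ ∀ u v, G.Adj u v → δ ≤ l u v := by
    let S : Finset (V × V) := univ.filter fun p => G.Adj p.1 p.2
    by_cases hS : S.Nonempty
    · obtain ⟨p, hp, hmin⟩ := S.exists_min_image (fun p => l p.1 p.2) hS
      refine ⟨l p.1 p.2, hl0 _ _ (by simpa [S] using hp), fun u v h => ?_⟩
      exact hmin (u, v) (by simpa [S] using h)
    · refine ⟨1, one_pos, fun u v h => ?_⟩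
      exact absurd ⟨(u, v), by simpa [S] using h⟩ hS
  -- largest number
  obtain ⟨M, hM1, hM2, hM3, hM0⟩ : ∃ M : ℝ, (∀ u v, d u v ≤ M) ∧ (∀ u v, G.Adj u v → l u v ≤ M) ∧
      (∀ u, 4 * β * A u ≤ M) ∧ 0 < M := by
    refine ⟨(∑ p : V × V, d p.1 p.2) + (∑ p : V × V, if G.Adj p.1 p.2 then l p.1 p.2 else 0) +
      (∑ u, 4 * β * A u) + 1, ?_, ?_, ?_, ?_⟩
    all_goals
      have s1 : ∀ p : V × V, 0 ≤ d p.1 p.2 := fun p => hd0 _ _
      have s2 : ∀ p : V × V, 0 ≤ (if G.Adj p.1 p.2 then l p.1 p.2 else 0) := fun p => by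
        split_ifs with h
        · exact (hl0 _ _ h).le
        · exact le_rfl
      have s3 : ∀ u, 0 ≤ 4 * β * A u := fun u => mul_nonneg (by linarith) (hA0 u)
      have t1 := Finset.sum_nonneg (s := univ) fun p _ => s1 p
      have t2 := Finset.sum_nonneg (s := univ) fun p _ => s2 p
      have t3 := Finset.sum_nonneg (s := univ) fun p _ => s3 p
    · intro u v
      have := Finset.single_le_sum (f := fun p : V × V => d p.1 p.2) (fun p _ => s1 p)
        (mem_univ (u, v))
      linarith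
    · intro u v h
      have := Finset.single_le_sum (f := fun p : V × V => if G.Adj p.1 p.2 then l p.1 p.2 else 0)
        (fun p _ => s2 p) (mem_univ (u, v))
      simp only [if_pos h] at this
      linarith
    · intro u
      have := Finset.single_le_sum (f := fun u => 4 * β * A u) (fun p _ => s3 p) (mem_univ u)
      linarith
    · linarith
  obtain ⟨n, hn⟩ : ∃ n : ℕ, M ≤ δ * 2 ^ n := by
    obtain ⟨n, hn⟩ := pow_unbounded_of_one_lt (M / δ) (by norm_num : (1 : ℝ) < 2)
    refine ⟨n, ?_⟩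
    rw [div_lt_iff₀ hδ0] at hn
    linarith
  let D : ℕ → ℝ := fun i => δ * 2 ^ i
  have hD0 : ∀ i, 0 < D i := fun i => by simp only [D]; positivity
  have hD : ∀ i, D (i + 1) = 2 * D i := fun i => by simp only [D, pow_succ]; ring
  have hDn : ∀ i ≤ n, D i ≤ D n := by
    intro i hi
    simp only [D]
    have : (2 : ℝ) ^ i ≤ 2 ^ n := pow_le_pow_right₀ (by norm_num) hi
    exact mul_le_mul_of_nonneg_left this hδ0.le
  have hT : 0 < 41 * D n + 85 * M := by
    have := hD0 n
    linarith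
  let ε : ℝ := min (1 / (16 * (m + 1))) (δ / (41 * D n + 85 * M))
  have hε0 : 0 < ε := lt_min (by positivity) (by positivity)
  have hmε : (m : ℝ) * ε ≤ 1 / 16 := by
    have h1 : ε ≤ 1 / (16 * (m + 1)) := min_le_left _ _
    have hm0 : (0 : ℝ) ≤ m := Nat.cast_nonneg _
    calc (m : ℝ) * ε ≤ m * (1 / (16 * (m + 1))) := mul_le_mul_of_nonneg_left h1 hm0
      _ ≤ 1 / 16 := by
        rw [mul_one_div, div_le_div_iff₀ (by positivity) (by norm_num)]
        linarith
  have hεT : ε * (41 * D n + 85 * M) ≤ δ := by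
    have h1 : ε ≤ δ / (41 * D n + 85 * M) := min_le_right _ _
    rwa [le_div_iff₀ hT] at h1
  let s : V → Option V := fun v => if v ∈ X then some v else none
  have hsX : ∀ v, v ∈ X → s v = some v := fun v h => if_pos h
  have hsn : ∀ v, v ∉ X → s v = none := fun v h => if_neg h
  have hss : ∀ v x, s v = some x → v = x ∧ x ∈ X := by
    intro v x h
    by_cases hv : v ∈ X
    · rw [hsX v hv] at h
      have := Option.some.inj h
      exact ⟨this, this ▸ hv⟩
    · rw [hsn v hv] at h
      exact absurd h (by simp)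
  have hs : Cfg G d X (2 * D 0) s := by
    refine ⟨hsX, fun v x h => (hss v x h).2, fun v x h => ?_, fun v x h => ?_⟩
    · obtain ⟨rfl, -⟩ := hss v x h
      exact ⟨Walk.nil, by simp [h]⟩
    · obtain ⟨rfl, -⟩ := hss v x h
      rw [hd.self]
      have := hD0 0
      linarith
  obtain ⟨ι, _, w, π, hF, hg1, hh1⟩ := run (G := G) (d := d) (l := l) (X := X) (A := A) (β := β)
    (ε := ε) (m := m) (n := n) (D := D) hβ hε0.le hmε hD0 hD hd.self hd.symm hd.tri hl0 hl hA0 hA
    hAl (fun v _ => ⟨ν v, hν.mem v, g v, hm v, hg v⟩) hX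
    (by
      intro Δ hΔ
      obtain ⟨Ω, i1, i2, c, h1, h2⟩ := hcut Δ ε hΔ hε0
      refine ⟨Ω, i1, i2, c, ⟨?_, h2⟩⟩
      rintro o u v ⟨q, hq⟩ hcc
      exact h1 o u v (hq u q.start_mem_support) (hq v q.end_mem_support) ⟨q, hq⟩ hcc)
    (fun u v => (hM1 u v).trans hn) (fun u v h => (hM2 u v h).trans hn)
    (fun u => (hM3 u).trans hn)
    (by
      intro u v h i hi
      have h1 := hDn i hi
      have h2 := hM3 u
      have h3 := hδ u v h
      have h4 : 41 * D i + 340 * β * A u ≤ 41 * D n + 85 * M := by linarith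
      have h5 := mul_le_mul_of_nonneg_left h4 hε0.le
      linarith)
    n 0 (by omega) s hs
  refine ⟨ι, inferInstance, w, π, hF.nn, hF.sum, hF.mem,
    fun i x hx => hF.ext i x x (hsX x hx), hF.conn, ?_⟩
  have hD00 : D 0 = δ := by simp [D]
  rw [hD00] at hg1 hh1
  have hone : ∀ u, u ∉ X → ∑ k, w k * d u (π k u) ≤ 160 * β * A u + 8 * δ := fun u hu =>
    (hg1 u (hsn u hu)).trans (gb_le hβ (hA0 u) hδ0)
  have hβ2 : β ≤ β ^ 2 := by nlinarith
  have hβ3 : 1 ≤ β ^ 2 := by nlinarith
  -- one end in X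
  have hend : ∀ u v, G.Adj u v → u ∉ X → v ∈ X →
      ∑ k, w k * d (π k u) v ≤ 10000 * β ^ 2 * l u v := by
    intro u v h hu hv
    have h1 := hone u hu
    have h2 := hA u v hv
    have h3 := hl u v h
    have h4 := hδ u v h
    have h5 := hl0 u v h
    have h6 : ∑ k, w k * d (π k u) v ≤ ∑ k, (w k * d u (π k u) + w k * l u v) := by
      refine Finset.sum_le_sum fun k _ => ?_
      have t1 := hd.tri (π k u) u v
      have t2 := hd.symm (π k u) u
      have t3 := hF.nn k
      have : d (π k u) v ≤ d u (π k u) + l u v := by linarith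
      nlinarith
    rw [Finset.sum_add_distrib, ← Finset.sum_mul, hF.sum, one_mul] at h6
    have h7 : β * A u ≤ β * l u v := mul_le_mul_of_nonneg_left (by linarith) (by linarith)
    have h8 : β * l u v ≤ β ^ 2 * l u v := mul_le_mul_of_nonneg_right hβ2 h5.le
    have h9 : 1 * l u v ≤ β ^ 2 * l u v := mul_le_mul_of_nonneg_right hβ3 h5.le
    nlinarith
  intro u v huv
  have hL := hl0 u v huv
  show ∑ i, w i * d (π i u) (π i v) ≤ 10000 * β ^ 2 * l u v
  have k1 : β * l u v ≤ β ^ 2 * l u v := mul_le_mul_of_nonneg_right hβ2 hL.le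
  have k2 : 1 * l u v ≤ β ^ 2 * l u v := mul_le_mul_of_nonneg_right hβ3 hL.le
  by_cases hu : u ∈ X
  · have e1 : ∀ i, π i u = u := fun i => hF.ext i u u (hsX u hu)
    by_cases hv : v ∈ X
    · have e2 : ∀ i, π i v = v := fun i => hF.ext i v v (hsX v hv)
      simp only [e1, e2]
      rw [← Finset.sum_mul, hF.sum, one_mul]
      have := hl u v huv
      nlinarith
    · simp only [e1]
      have := hend v u huv.symm hv hu
      rw [hlsymm v u] at this
      refine le_trans (le_of_eq ?_) this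
      exact Finset.sum_congr rfl fun k _ => by rw [hd.symm]
  · by_cases hv : v ∈ X
    · have e2 : ∀ i, π i v = v := fun i => hF.ext i v v (hsX v hv)
      simp only [e2]
      exact hend u v huv hu hv
    · by_cases h8 : 8 * l u v < A u
      · have h1 := hh1 u v huv (hsn u hu) (hsn v hv) h8
        have h2 := hb_le (β := β) (A := A u) (Δ := δ) hL.le
        nlinarith
      · push Not at h8
        have h1 := hone u hu
        have h2 := hone v hv
        have h3 := hAl1 v u huv.symm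
        rw [hlsymm v u] at h3
        have h4 := hδ u v huv
        have h6 : ∑ k, w k * d (π k u) (π k v) ≤
            ∑ k, (w k * d u (π k u) + w k * l u v + w k * d v (π k v)) := by
          refine Finset.sum_le_sum fun k _ => ?_
          have t1 := hd.tri (π k u) u (π k v)
          have t2 := hd.tri u v (π k v)
          have t3 := hd.symm (π k u) u
          have t4 := hl u v huv
          have t5 := hF.nn k
          have : d (π k u) (π k v) ≤ d u (π k u) + l u v + d v (π k v) := by linarith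
          nlinarith
        rw [Finset.sum_add_distrib, Finset.sum_add_distrib, ← Finset.sum_mul, hF.sum,
          one_mul] at h6
        have h7 : β * A u ≤ β * (8 * l u v) := mul_le_mul_of_nonneg_left h8 (by linarith)
        have h9 : β * A v ≤ β * (9 * l u v) :=
          mul_le_mul_of_nonneg_left (by linarith) (by linarith)
        nlinarith

end Vale.Agent.P235.ST.H130
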